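import Mathlib

namespace Vale.Agent.Lib.P238

/-- Levenshtein edit distance on binary words (unit-cost insertions, deletions and
substitutions), given by the usual recursion. -/
def ed : List Bool → List Bool → ℕ
  | [], ys => ys.length
  | x :: xs, [] => (x :: xs).length
  | x :: xs, y :: ys =>
      min (min (ed xs (y :: ys) + 1) (ed (x :: xs) ys + 1)) (ed xs ys + if x = y then 0 else 1)

theorem ed_nil_left (ys : List Bool) : ed [] ys = ys.length := by
  simp [ed]

theorem ed_nil_right (xs : List Bool) : ed xs [] = xs.length := by
  cases xs <;> simp [ed]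

theorem ed_cons_cons (x y : Bool) (xs ys : List Bool) :
    ed (x :: xs) (y :: ys) =
      min (min (ed xs (y :: ys) + 1) (ed (x :: xs) ys + 1))
        (ed xs ys + if x = y then 0 else 1) := by
  rw [ed]

/-- Deleting the first letter of the first word costs at most one. -/
theorem ed_cons_left_le (a : Bool) (xs ys : List Bool) : ed (a :: xs) ys ≤ ed xs ys + 1 := by
  cases ys with
  | nil => simp [ed_nil_right]
  | cons b ys =>
    rw [ed_cons_cons]
    exact le_trans (min_le_left _ _) (min_le_left _ _)

/-- Inserting a first letter into the second word costs at most one. -/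
theorem ed_cons_right_le (b : Bool) (xs ys : List Bool) : ed xs (b :: ys) ≤ ed xs ys + 1 := by
  cases xs with
  | nil => simp [ed_nil_left]
  | cons a xs =>
    rw [ed_cons_cons]
    exact le_trans (min_le_left _ _) (min_le_right _ _)

theorem ed_le_cons_right (b : Bool) (xs ys : List Bool) : ed xs ys ≤ ed xs (b :: ys) + 1 := by
  induction xs with
  | nil => simp [ed_nil_left]; omega
  | cons a xs ih =>
    rw [ed_cons_cons]
    have h1 := ed_cons_left_le a xs ys
    have h2 : (0:ℕ) ≤ if a = b then 0 else 1 := Nat.zero_le _
    omega

theorem ed_le_cons_left (a : Bool) (xs ys : List Bool) : ed xs ys ≤ ed (a :: xs) ys + 1 := by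
  induction ys with
  | nil => simp [ed_nil_right]; omega
  | cons b ys ih =>
    rw [ed_cons_cons]
    have h1 := ed_cons_right_le b xs ys
    have h2 : (0:ℕ) ≤ if a = b then 0 else 1 := Nat.zero_le _
    omega

/-- A common first letter can be cancelled. -/
theorem ed_cons_same (a : Bool) (xs ys : List Bool) : ed (a :: xs) (a :: ys) = ed xs ys := by
  rw [ed_cons_cons]
  have h1 := ed_le_cons_right a xs ys
  have h2 := ed_le_cons_left a xs ys
  simp only [if_true]
  omega

/-- A common prefix can be cancelled. -/
theorem ed_append_left (w xs ys : List Bool) : ed (w ++ xs) (w ++ ys) = ed xs ys := by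
  induction w with
  | nil => rfl
  | cons a w ih => simpa [ed_cons_same] using ih

end Vale.Agent.Lib.P238
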