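import Mathlib

namespace Vale.Agent.Lib.P238

/-- The pentagonal inequality on the real line. -/
theorem pentagon_real (p s t q r : ℝ) :
    |p - s| + |p - t| + |s - t| + |q - r| ≤
      |p - q| + |p - r| + |s - q| + |s - r| + |t - q| + |t - r| := by
  have a1 := le_abs_self (p - q)
  have a2 := neg_abs_le (p - q)
  have a3 := le_abs_self (p - r)
  have a4 := neg_abs_le (p - r)
  have a5 := le_abs_self (s - q)
  have a6 := neg_abs_le (s - q)
  have a7 := le_abs_self (s - r)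
  have a8 := neg_abs_le (s - r)
  have a9 := le_abs_self (t - q)
  have a10 := neg_abs_le (t - q)
  have a11 := le_abs_self (t - r)
  have a12 := neg_abs_le (t - r)
  rcases abs_cases (p - s) with ⟨e1, _⟩ | ⟨e1, _⟩ <;>
  rcases abs_cases (p - t) with ⟨e2, _⟩ | ⟨e2, _⟩ <;>
  rcases abs_cases (s - t) with ⟨e3, _⟩ | ⟨e3, _⟩ <;>
  rcases abs_cases (q - r) with ⟨e4, _⟩ | ⟨e4, _⟩ <;>
  rw [e1, e2, e3, e4] <;> linarith

/-- Coordinatewise description of the norm of the sequence space `ℓ_1`. -/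
theorem l1_hasSum (u v : lp (fun _ : ℕ => ℝ) 1) :
    HasSum (fun i => |u i - v i|) ‖u - v‖ := by
  have h := lp.hasSum_norm (p := 1) (by norm_num) (u - v)
  simpa using h

/-- The pentagonal inequality in `ℓ_1`. -/
theorem pentagon_l1 (P S T Q R : lp (fun _ : ℕ => ℝ) 1) :
    ‖P - S‖ + ‖P - T‖ + ‖S - T‖ + ‖Q - R‖ ≤
      ‖P - Q‖ + ‖P - R‖ + ‖S - Q‖ + ‖S - R‖ + ‖T - Q‖ + ‖T - R‖ := by
  have hL := (((l1_hasSum P S).add (l1_hasSum P T)).add (l1_hasSum S T)).add (l1_hasSum Q R)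
  have hR := (((((l1_hasSum P Q).add (l1_hasSum P R)).add (l1_hasSum S Q)).add
    (l1_hasSum S R)).add (l1_hasSum T Q)).add (l1_hasSum T R)
  exact hasSum_le (fun i => pentagon_real _ _ _ _ _) hL hR

end Vale.Agent.Lib.P238
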